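import Mathlib

/-!
# P012 sub-lemma ENDGAME (real-analysis bookkeeping)

`K * (10 + clog 2 (clog 2 b))^2 ≤ C * (log log b)^2` for all naturals `b ≥ 2`.
-/

namespace Vale.Agent.H80

/-- `clog 2 (clog 2 b) ≤ 2 + 2 |log log b|` for `b ≥ 2`. -/
theorem clog_clog_le (b : ℕ) (hb : 2 ≤ b) :
    (Nat.clog 2 (Nat.clog 2 b) : ℝ) ≤ 2 + 2 * |Real.log (Real.log b)| := by
  have habs : 0 ≤ |Real.log (Real.log b)| := abs_nonneg _
  by_cases hu3 : Nat.clog 2 (Nat.clog 2 b) ≤ 2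
  · have : (Nat.clog 2 (Nat.clog 2 b) : ℝ) ≤ 2 := by exact_mod_cast hu3
    linarith
  · rw [not_le] at hu3
    have hm2 : 1 < Nat.clog 2 b := by
      by_contra h
      rw [not_lt] at h
      have h0 : Nat.clog 2 (Nat.clog 2 b) = 0 := Nat.clog_of_right_le_one h 2
      omega
    have h1 : 2 ^ (Nat.clog 2 (Nat.clog 2 b) - 1) < Nat.clog 2 b := by
      have := Nat.pow_pred_clog_lt_self (b := 2) (by norm_num) hm2
      simpa [Nat.pred_eq_sub_one] using this
    have h2 : 2 ^ (Nat.clog 2 b - 1) < b := by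
      have := Nat.pow_pred_clog_lt_self (b := 2) (by norm_num) (show 1 < b by omega)
      simpa [Nat.pred_eq_sub_one] using this
    -- abbreviations
    obtain ⟨u, hu⟩ : ∃ u, Nat.clog 2 (Nat.clog 2 b) = u + 1 :=
      ⟨Nat.clog 2 (Nat.clog 2 b) - 1, by omega⟩
    obtain ⟨m, hm⟩ : ∃ m, Nat.clog 2 b = m + 1 := ⟨Nat.clog 2 b - 1, by omega⟩
    rw [hu] at h1 hu3 ⊢
    rw [hm] at h1 h2
    simp only [Nat.add_sub_cancel] at h1 h2
    have h1' : 2 ^ u ≤ m := by omega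
    have hl2 : (0.6931471803 : ℝ) < Real.log 2 := Real.log_two_gt_d9
    have hl2' : Real.log 2 < (0.6931471808 : ℝ) := Real.log_two_lt_d9
    have hl2pos : (0 : ℝ) < Real.log 2 := by linarith
    -- log b > m * log 2
    have hb1 : (m : ℝ) * Real.log 2 < Real.log b := by
      have hlt : ((2 : ℝ) ^ m) < (b : ℝ) := by exact_mod_cast h2
      have := Real.log_lt_log (by positivity) hlt
      rwa [Real.log_pow] at this
    have hmu : ((2 : ℝ) ^ u) ≤ (m : ℝ) := by exact_mod_cast h1'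
    have hb2 : (2 : ℝ) ^ u * Real.log 2 < Real.log b := by
      have : (2 : ℝ) ^ u * Real.log 2 ≤ (m : ℝ) * Real.log 2 :=
        mul_le_mul_of_nonneg_right hmu hl2pos.le
      linarith
    have hpos : (0 : ℝ) < (2 : ℝ) ^ u * Real.log 2 := by positivity
    have hx : Real.log ((2 : ℝ) ^ u * Real.log 2) < Real.log (Real.log b) :=
      Real.log_lt_log hpos hb2
    rw [Real.log_mul (by positivity) hl2pos.ne', Real.log_pow] at hx
    have hll : 1 - (Real.log 2)⁻¹ ≤ Real.log (Real.log 2) :=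
      Real.one_sub_inv_le_log_of_pos hl2pos
    have hinv : (Real.log 2)⁻¹ ≤ 1.45 := by
      rw [inv_le_comm₀ hl2pos (by norm_num)]
      norm_num
      linarith
    have hu2 : (2 : ℝ) ≤ (u : ℝ) := by
      have : 2 ≤ u := by omega
      exact_mod_cast this
    have hxpos : 0 < Real.log (Real.log b) := by nlinarith
    rw [abs_of_pos hxpos]
    push_cast
    nlinarith

/-- `(log log b)^2 ≥ 1/2000` for every natural `b ≥ 2`. -/
theorem loglog_sq_ge (b : ℕ) (hb : 2 ≤ b) :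
    (1 / 2000 : ℝ) ≤ (Real.log (Real.log b)) ^ 2 := by
  have hl2 : (0.6931471803 : ℝ) < Real.log 2 := Real.log_two_gt_d9
  have hl2' : Real.log 2 < (0.6931471808 : ℝ) := Real.log_two_lt_d9
  have hl2pos : (0 : ℝ) < Real.log 2 := by linarith
  rcases Nat.eq_or_lt_of_le hb with h | h
  · subst h
    have h1 : Real.log (Real.log 2) ≤ Real.log 2 - 1 := Real.log_le_sub_one_of_pos hl2pos
    push_cast
    nlinarith
  · have h3 : (3 : ℝ) ≤ (b : ℝ) := by exact_mod_cast h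
    have hlog3 : Real.log 3 ≤ Real.log b := Real.log_le_log (by norm_num) h3
    have h32 : Real.log (3 / 2 : ℝ) = Real.log 3 - Real.log 2 := by
      rw [Real.log_div (by norm_num) (by norm_num)]
    have h32' : 1 - ((3 / 2 : ℝ))⁻¹ ≤ Real.log (3 / 2 : ℝ) :=
      Real.one_sub_inv_le_log_of_pos (by norm_num)
    have hlb : (1.026 : ℝ) ≤ Real.log b := by
      norm_num at h32'
      linarith
    have hlbpos : (0 : ℝ) < Real.log b := by linarith
    have h4 : 1 - (Real.log b)⁻¹ ≤ Real.log (Real.log b) :=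
      Real.one_sub_inv_le_log_of_pos hlbpos
    have hinv : (Real.log b)⁻¹ ≤ (1.026 : ℝ)⁻¹ := by
      apply inv_anti₀ (by norm_num) hlb
    have h5 : (0.025 : ℝ) ≤ Real.log (Real.log b) := by
      have : (1.026 : ℝ)⁻¹ ≤ 0.975 := by norm_num
      linarith
    nlinarith

theorem endgame (K : ℕ) : ∃ C : ℝ, ∀ b : ℕ, 2 ≤ b →
    (K : ℝ) * ((10 : ℝ) + (Nat.clog 2 (Nat.clog 2 b) : ℝ)) ^ 2 ≤
      C * (Real.log (Real.log b)) ^ 2 := by
  refine ⟨(K : ℝ) * (288 * 2000 + 8), fun b hb => ?_⟩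
  have h1 := clog_clog_le b hb
  have h2 := loglog_sq_ge b hb
  have hu0 : (0 : ℝ) ≤ (Nat.clog 2 (Nat.clog 2 b) : ℝ) := Nat.cast_nonneg _
  have habs : 0 ≤ |Real.log (Real.log b)| := abs_nonneg _
  have hsq : |Real.log (Real.log b)| ^ 2 = (Real.log (Real.log b)) ^ 2 := sq_abs _
  have hK : (0 : ℝ) ≤ (K : ℝ) := Nat.cast_nonneg _
  have key : ((10 : ℝ) + (Nat.clog 2 (Nat.clog 2 b) : ℝ)) ^ 2 ≤
      (288 * 2000 + 8) * (Real.log (Real.log b)) ^ 2 := by
    have ha : ((10 : ℝ) + (Nat.clog 2 (Nat.clog 2 b) : ℝ)) ^ 2 ≤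
        (12 + 2 * |Real.log (Real.log b)|) ^ 2 := by
      apply pow_le_pow_left₀ (by linarith) (by linarith)
    have hb' : (12 + 2 * |Real.log (Real.log b)|) ^ 2 ≤
        288 + 8 * |Real.log (Real.log b)| ^ 2 := by
      nlinarith [sq_nonneg (12 - 2 * |Real.log (Real.log b)|)]
    rw [hsq] at hb'
    nlinarith
  calc (K : ℝ) * ((10 : ℝ) + (Nat.clog 2 (Nat.clog 2 b) : ℝ)) ^ 2
      ≤ (K : ℝ) * ((288 * 2000 + 8) * (Real.log (Real.log b)) ^ 2) :=
        mul_le_mul_of_nonneg_left key hK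
    _ = (K : ℝ) * (288 * 2000 + 8) * (Real.log (Real.log b)) ^ 2 := by ring

end Vale.Agent.H80
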